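import Vale.Agent.P189.Assembly
import Vale.Agent.P189.Lower

/-!
A finitely generated group without fixed price: two essentially free actions on standard Borel
probability spaces, one of cost at most three, the other of cost at least four.
-/

namespace Vale.Agent.Results.P189.FixedPriceFails

open MeasureTheory Vale.Agent.P189
open scoped ENNReal

/-- A finitely generated countable group has two essentially free measure preserving actions on
standard Borel probability spaces with different costs. -/
theorem result : ∃ (H : Type) (_ : Group H), Countable H ∧ Group.FG H ∧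
    ∃ (U : Type) (_ : MeasurableSpace U) (_ : StandardBorelSpace U) (_ : MulAction H U)
      (μ : Measure U) (W : Type) (_ : MeasurableSpace W) (_ : StandardBorelSpace W)
      (_ : MulAction H W) (ν : Measure W),
      IsProbabilityMeasure μ ∧ IsProbabilityMeasure ν ∧ IsPMP H μ ∧ IsPMP H ν ∧
        IsEssFree H μ ∧ IsEssFree H ν ∧ cost H μ ≤ 3 ∧ 4 ≤ cost H ν := by
  have : NeZero bigP := ⟨Nat.one_le_iff_ne_zero.1 (Nat.ceil_pos.2 (by positivity))⟩
  refine ⟨G bigP, inferInstance, inferInstance, fg_G bigP, Y bigP bigP, inferInstance,
    inferInstance, inferInstance, μY bigP bigP, X bigP, inferInstance, inferInstance,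
    inferInstance, μX bigP, inferInstance, inferInstance, isPMP_Y bigP bigP, isPMP_X bigP,
    isEssFree_Y bigP bigP, isEssFree_X bigP, ?_,
    four_le_cost_X fun D hD k hc hgen => no_small_family D hD k hc hgen⟩
  refine (cost_Y_le bigP bigP).trans (le_of_eq ?_)
  rw [ENNReal.div_self (Nat.cast_ne_zero.2 (NeZero.ne bigP)) (ENNReal.natCast_ne_top bigP)]
  norm_num

end Vale.Agent.Results.P189.FixedPriceFails
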